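import Mathlib

/-!
# Vector-valued losslessness (section 3 of the P318 text)
-/

namespace Vale.Agent.P318.Vec
open Finset

variable {ι : Type*}

/-- `Less E S W ℓ`: for all `|U| ≤ W`, `|S||U| ≤ ∑_{y ∈ S} |E_y U| + ℓ|U|` -/
def Less {La A : Type*} [DecidableEq A] (E : ι → La → A) (S : Finset ι) (W ℓ : ℕ) : Prop :=
  ∀ U : Finset La, U.card ≤ W → S.card * U.card ≤ ∑ y ∈ S, (U.image (E y)).card + ℓ * U.card

lemma nat_layer (M w : ℕ) (h : w ≤ M) : ∑ τ ∈ range M, (if τ < w then 1 else 0) = w := by
  rw [← Finset.card_filter]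
  have : (range M).filter (fun τ => τ < w) = range w := by
    ext τ; simp only [mem_filter, mem_range]; omega
  rw [this, card_range]

/-- (3.1) weighted version -/
theorem weighted {La A : Type*} [DecidableEq A] (E : ι → La → A) (S : Finset ι)
    (W ℓ : ℕ) (hE : Less E S W ℓ) (U : Finset La) (hU : U.card ≤ W) (w : La → ℕ) :
    S.card * ∑ f ∈ U, w f ≤
      ∑ y ∈ S, ∑ a ∈ U.image (E y), (U.filter (fun f => E y f = a)).sup w + ℓ * ∑ f ∈ U, w f := by
  classical
  set M := U.sup w with hM
  have hwM : ∀ f ∈ U, w f ≤ M := fun f hf => Finset.le_sup hf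
  have h1 : ∑ f ∈ U, w f = ∑ τ ∈ range M, (U.filter (fun f => τ < w f)).card := by
    simp only [Finset.card_filter]
    rw [Finset.sum_comm]
    exact Finset.sum_congr rfl fun f hf => (nat_layer M (w f) (hwM f hf)).symm
  have h2 : ∀ y ∈ S, ∑ a ∈ U.image (E y), (U.filter (fun f => E y f = a)).sup w
      = ∑ τ ∈ range M, ((U.filter (fun f => τ < w f)).image (E y)).card := by
    intro y _
    have h3 : ∀ a ∈ U.image (E y), (U.filter (fun f => E y f = a)).sup w
        = ∑ τ ∈ range M, (if a ∈ (U.filter (fun f => τ < w f)).image (E y) then 1 else 0) := by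
      intro a _
      have h4 : (U.filter (fun f => E y f = a)).sup w ≤ M :=
        Finset.sup_mono (Finset.filter_subset _ _)
      rw [← nat_layer M _ h4]
      refine Finset.sum_congr rfl fun τ _ => ?_
      have h5 : (τ < (U.filter (fun f => E y f = a)).sup w) ↔
          a ∈ (U.filter (fun f => τ < w f)).image (E y) := by
        rw [Finset.lt_sup_iff]
        simp only [Finset.mem_filter, Finset.mem_image]
        constructor
        · rintro ⟨b, ⟨hb, hb'⟩, hb''⟩; exact ⟨b, ⟨hb, hb''⟩, hb'⟩
        · rintro ⟨b, ⟨hb, hb'⟩, hb''⟩; exact ⟨b, ⟨hb, hb''⟩, hb'⟩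
      simp only [h5]
    rw [Finset.sum_congr rfl h3, Finset.sum_comm]
    refine Finset.sum_congr rfl fun τ _ => ?_
    rw [← Finset.card_filter]
    congr 1
    ext a
    simp only [Finset.mem_filter, Finset.mem_image]
    constructor
    · rintro ⟨_, h⟩; exact h
    · rintro ⟨f, ⟨hf, hf'⟩, rfl⟩; exact ⟨⟨f, hf, rfl⟩, ⟨f, ⟨hf, hf'⟩, rfl⟩⟩
  rw [Finset.sum_congr rfl h2, h1, Finset.sum_comm, Finset.mul_sum, Finset.mul_sum,
    ← Finset.sum_add_distrib]
  refine Finset.sum_le_sum fun τ _ => ?_
  exact hE _ ((Finset.card_le_card (Finset.filter_subset _ _)).trans hU)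

/-- the product of two lossless families -/
theorem Less.prod {La A La' A' : Type*} [DecidableEq A] [DecidableEq A']
    (E : ι → La → A) (E' : ι → La' → A') (S : Finset ι) (W ℓ ℓ' : ℕ)
    (hE : Less E S W ℓ) (hE' : Less E' S W ℓ') :
    Less (fun y (p : La × La') => (E y p.1, E' y p.2)) S W (ℓ + ℓ') := by
  classical
  intro U hU
  set U1 := U.image Prod.fst with hU1
  let C : La → Finset La' := fun f => (U.filter (fun p => p.1 = f)).image Prod.snd
  have hC : ∀ f p, p ∈ C f ↔ (f, p) ∈ U := by
    intro f p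
    simp only [C, Finset.mem_image, Finset.mem_filter]
    constructor
    · rintro ⟨⟨a, b⟩, ⟨h1, h2⟩, h3⟩
      simp only at h2 h3; subst h2; subst h3; exact h1
    · intro h; exact ⟨(f, p), ⟨h, rfl⟩, rfl⟩
  have hcard : U.card = ∑ f ∈ U1, (C f).card := by
    rw [Finset.card_eq_sum_card_fiberwise (f := Prod.fst) (t := U1)
      (fun p hp => Finset.mem_image_of_mem _ hp)]
    refine Finset.sum_congr rfl fun f _ => ?_
    simp only [C]
    rw [Finset.card_image_of_injOn]
    intro p hp p' hp' h
    simp only [Finset.coe_filter, Set.mem_ofPred_eq] at hp hp'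
    exact Prod.ext (hp.2.trans hp'.2.symm) h
  have hU1c : U1.card ≤ W := Finset.card_image_le.trans hU
  have hCc : ∀ f, (C f).card ≤ W := fun f =>
    (Finset.card_image_le.trans (Finset.card_le_card (Finset.filter_subset _ _))).trans hU
  have hw := weighted E S W ℓ hE U1 hU1c (fun f => (C f).card)
  -- for every y
  have hy : ∀ y ∈ S, ∑ a ∈ U1.image (E y), (U1.filter (fun f => E y f = a)).sup (fun f => (C f).card)
      + ∑ f ∈ U1, ((C f).image (E' y)).card
      ≤ (U.image (fun p : La × La' => (E y p.1, E' y p.2))).card + ∑ f ∈ U1, (C f).card := by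
    intro y _
    have h1 : (U.image (fun p : La × La' => (E y p.1, E' y p.2))).card
        = ∑ a ∈ U1.image (E y),
          ((U.image (fun p : La × La' => (E y p.1, E' y p.2))).filter (fun r => r.1 = a)).card := by
      apply Finset.card_eq_sum_card_fiberwise
      intro r hr
      rw [Finset.mem_coe, Finset.mem_image] at hr ⊢
      obtain ⟨p, hp, rfl⟩ := hr
      exact ⟨p.1, Finset.mem_image_of_mem _ hp, rfl⟩
    have h2 : ∀ (F : La → ℕ), ∑ f ∈ U1, F f
        = ∑ a ∈ U1.image (E y), ∑ f ∈ U1.filter (fun f => E y f = a), F f := by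
      intro F
      exact (Finset.sum_fiberwise_of_maps_to (fun f hf => Finset.mem_image_of_mem _ hf) _).symm
    rw [h1, h2 (fun f => ((C f).image (E' y)).card), h2 (fun f => (C f).card),
      ← Finset.sum_add_distrib, ← Finset.sum_add_distrib]
    refine Finset.sum_le_sum fun a ha => ?_
    have hne : (U1.filter (fun f => E y f = a)).Nonempty := by
      obtain ⟨f, hf, hfa⟩ := Finset.mem_image.1 ha
      exact ⟨f, Finset.mem_filter.2 ⟨hf, hfa⟩⟩
    obtain ⟨g, hg, hgs⟩ := Finset.exists_mem_eq_sup _ hne (fun f => (C f).card)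
    rw [hgs]
    have h3 : ((C g).image (E' y)).card ≤
        ((U.image (fun p : La × La' => (E y p.1, E' y p.2))).filter (fun r => r.1 = a)).card := by
      apply Finset.card_le_card_of_injOn (fun b => (a, b))
      · intro b hb
        rw [Finset.mem_coe, Finset.mem_image] at hb
        obtain ⟨p, hp, rfl⟩ := hb
        rw [Finset.mem_coe, Finset.mem_filter, Finset.mem_image]
        refine ⟨⟨(g, p), (hC g p).1 hp, ?_⟩, rfl⟩
        simp only [(Finset.mem_filter.1 hg).2]
      · intro b _ b' _ h
        exact (Prod.mk.inj h).2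
    rw [← Finset.add_sum_erase _ _ hg, ← Finset.add_sum_erase _ _ hg]
    have h4 : ∑ f ∈ (U1.filter (fun f => E y f = a)).erase g, ((C f).image (E' y)).card
        ≤ ∑ f ∈ (U1.filter (fun f => E y f = a)).erase g, (C f).card :=
      Finset.sum_le_sum fun f _ => Finset.card_image_le
    omega
  have hsum := Finset.sum_le_sum hy
  rw [Finset.sum_add_distrib, Finset.sum_add_distrib, Finset.sum_const, smul_eq_mul,
    Finset.sum_comm (s := S) (t := U1)] at hsum
  have h5 : ∑ f ∈ U1, S.card * (C f).card ≤
      ∑ f ∈ U1, (∑ y ∈ S, ((C f).image (E' y)).card + ℓ' * (C f).card) :=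
    Finset.sum_le_sum fun f _ => hE' (C f) (hCc f)
  rw [← Finset.mul_sum, Finset.sum_add_distrib, ← Finset.mul_sum] at h5
  rw [← hcard] at hsum h5 hw
  rw [add_mul]
  beta_reduce
  omega

/-- (3.2) -/
theorem Less.pi {La A : Type*} [DecidableEq A] (E : ι → La → A) (S : Finset ι) (W ℓ : ℕ)
    (hE : Less E S W ℓ) : ∀ r : ℕ,
    Less (fun y (f : Fin r → La) => fun i => E y (f i)) S W (r * ℓ) := by
  classical
  intro r
  induction r with
  | zero =>
    intro U _
    have h1 : ∀ y ∈ S, (U.image (fun f : Fin 0 → La => fun i => E y (f i))).card = U.card := by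
      intro y _
      apply Finset.card_image_of_injective
      intro a b _
      exact Subsingleton.elim _ _
    rw [Finset.sum_congr rfl h1]
    simp
  | succ r ih =>
    have hp := hE.prod E _ S W ℓ (r * ℓ) ih
    intro U hU
    let φ : (Fin (r + 1) → La) → La × (Fin r → La) := fun f => (f 0, fun i => f i.succ)
    let ψ : (Fin (r + 1) → A) → A × (Fin r → A) := fun f => (f 0, fun i => f i.succ)
    have hφ : Function.Injective φ := by
      intro f g h
      funext i
      refine Fin.cases ?_ (fun j => ?_) i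
      · exact (Prod.mk.inj h).1
      · exact congrFun (Prod.mk.inj h).2 j
    have hψ : Function.Injective ψ := by
      intro f g h
      funext i
      refine Fin.cases ?_ (fun j => ?_) i
      · exact (Prod.mk.inj h).1
      · exact congrFun (Prod.mk.inj h).2 j
    have h1 := hp (U.image φ) (by rw [Finset.card_image_of_injective _ hφ]; exact hU)
    rw [Finset.card_image_of_injective _ hφ] at h1
    have h2 : ∀ y ∈ S, ((U.image φ).image (fun p : La × (Fin r → La) => (E y p.1, fun i => E y (p.2 i)))).card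
        = (U.image (fun f : Fin (r + 1) → La => fun i => E y (f i))).card := by
      intro y _
      rw [← Finset.card_image_of_injective (U.image (fun f : Fin (r + 1) → La => fun i => E y (f i))) hψ,
        Finset.image_image, Finset.image_image]
      rfl
    rw [Finset.sum_congr rfl h2] at h1
    have h3 : (r + 1) * ℓ = ℓ + r * ℓ := by ring
    rw [h3]
    exact h1

section proj
variable {La : Type*} [AddCommGroup La] [Module (ZMod 2) La]
variable {J : Type*} [Fintype J]

/-- at most half of the functionals kill a nonzero vector -/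
lemma half_kill [DecidableEq La] [DecidableEq J] (g : J → La) (hg : g ≠ 0) :
    2 * (univ.filter (fun φ : J → ZMod 2 => ∑ j, φ j • g j = 0)).card
      ≤ Fintype.card (J → ZMod 2) := by
  classical
  obtain ⟨j0, hj0⟩ := Function.ne_iff.1 hg
  have h1 : (univ.filter (fun φ : J → ZMod 2 => ∑ j, φ j • g j = 0)).card
      ≤ (univ.filter (fun φ : J → ZMod 2 => ¬ ∑ j, φ j • g j = 0)).card := by
    apply Finset.card_le_card_of_injOn (fun φ => φ + Pi.single j0 1)
    · intro φ hφ
      simp only [Finset.coe_filter, Set.mem_ofPred_eq, Finset.mem_univ, true_and] at hφ ⊢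
      intro h
      apply hj0
      simp only [Pi.add_apply, add_smul, Finset.sum_add_distrib, hφ, zero_add] at h
      rw [Finset.sum_eq_single j0] at h
      · simpa using h
      · intro b _ hb; simp [hb]
      · intro hh; exact absurd (Finset.mem_univ _) hh
    · intro a _ b _ h
      exact add_right_cancel h
  have h2 := Finset.card_filter_add_card_filter_not (s := (univ : Finset (J → ZMod 2)))
    (fun φ : J → ZMod 2 => ∑ j, φ j • g j = 0)
  rw [Finset.card_univ] at h2
  omega

lemma exists_kill_half [DecidableEq La] [DecidableEq J] (D : Finset (J → La))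
    (hD : ∀ g ∈ D, g ≠ 0) :
    ∃ φ : J → ZMod 2, 2 * (D.filter (fun g => ∑ j, φ j • g j = 0)).card ≤ D.card := by
  classical
  by_contra hcon
  push Not at hcon
  have h1 : ∑ _φ : J → ZMod 2, D.card
      < ∑ φ : J → ZMod 2, 2 * (D.filter (fun g => ∑ j, φ j • g j = 0)).card :=
    Finset.sum_lt_sum_of_nonempty Finset.univ_nonempty fun φ _ => hcon φ
  have h2 : ∑ φ : J → ZMod 2, (D.filter (fun g => ∑ j, φ j • g j = 0)).card
      = ∑ g ∈ D, (univ.filter (fun φ : J → ZMod 2 => ∑ j, φ j • g j = 0)).card := by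
    simp only [Finset.card_filter]
    exact Finset.sum_comm
  rw [← Finset.mul_sum, h2, Finset.mul_sum, Finset.sum_const, smul_eq_mul, Finset.card_univ] at h1
  have h3 : ∑ g ∈ D, 2 * (univ.filter (fun φ : J → ZMod 2 => ∑ j, φ j • g j = 0)).card
      ≤ ∑ _g ∈ D, Fintype.card (J → ZMod 2) :=
    Finset.sum_le_sum fun g hg => half_kill g (hD g hg)
  rw [Finset.sum_const, smul_eq_mul] at h3
  rw [mul_comm] at h1
  omega

lemma exists_proj [DecidableEq La] [DecidableEq J] : ∀ (r : ℕ) (D : Finset (J → La)),
    (∀ g ∈ D, g ≠ 0) → D.card < 2 ^ r →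
    ∃ φ : Fin r → J → ZMod 2, ∀ g ∈ D, ∃ i, ∑ j, φ i j • g j ≠ 0 := by
  classical
  intro r
  induction r with
  | zero =>
    intro D _ hc
    have : D = ∅ := by
      rw [← Finset.card_eq_zero]; simpa using hc
    exact ⟨fun i => i.elim0, fun g hg => by simp [this] at hg⟩
  | succ r ih =>
    intro D hD hc
    obtain ⟨φ0, hφ0⟩ := exists_kill_half D hD
    have h1 : (D.filter (fun g => ∑ j, φ0 j • g j = 0)).card < 2 ^ r := by
      rw [pow_succ] at hc; omega
    obtain ⟨φ, hφ⟩ := ih _ (fun g hg => hD g (Finset.mem_of_mem_filter g hg)) h1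
    refine ⟨Fin.cons φ0 φ, fun g hg => ?_⟩
    by_cases h : ∑ j, φ0 j • g j = 0
    · obtain ⟨i, hi⟩ := hφ g (Finset.mem_filter.2 ⟨hg, h⟩)
      exact ⟨i.succ, by simpa using hi⟩
    · exact ⟨0, by simpa using h⟩

/-- (3.3) vector-valued losslessness -/
theorem Less.vec [DecidableEq La] {A : Type*} [AddCommGroup A] [Module (ZMod 2) A] [DecidableEq A]
    (E : ι → La →ₗ[ZMod 2] A) (S : Finset ι) (m ℓ : ℕ)
    (hE : Less (fun y f => E y f) S (2 ^ m) ℓ) (J : Type*) [Fintype J] :
    Less (fun y (f : J → La) => fun j => E y (f j)) S (2 ^ m) ((2 * m + 1) * ℓ) := by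
  classical
  intro U hU
  have hp := Less.pi (fun y f => E y f) S (2 ^ m) ℓ hE (2 * m + 1)
  set D : Finset (J → La) := (U ×ˢ U).image (fun p => p.1 - p.2) \ {0} with hD
  have hDc : D.card < 2 ^ (2 * m + 1) := by
    have h1 : D.card ≤ U.card * U.card := by
      refine (Finset.card_le_card Finset.sdiff_subset).trans ?_
      refine Finset.card_image_le.trans ?_
      rw [Finset.card_product]
    have h2 : U.card * U.card ≤ 2 ^ m * 2 ^ m := Nat.mul_le_mul hU hU
    have h3 : 2 ^ (2 * m + 1) = 2 * (2 ^ m * 2 ^ m) := by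
      rw [pow_succ, two_mul m, pow_add]; ring
    have h4 : 0 < 2 ^ m * 2 ^ m := by positivity
    omega
  obtain ⟨φ, hφ⟩ := exists_proj (2 * m + 1) D (by
    intro g hg
    rw [hD, Finset.mem_sdiff] at hg
    simpa using hg.2) hDc
  let P : (J → La) → (Fin (2 * m + 1) → La) := fun f i => ∑ j, φ i j • f j
  let Q : (J → A) → (Fin (2 * m + 1) → A) := fun f i => ∑ j, φ i j • f j
  have hinj : Set.InjOn P U := by
    intro u hu v hv h
    by_contra hne
    have hmem : u - v ∈ D := by
      rw [hD, Finset.mem_sdiff]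
      refine ⟨Finset.mem_image.2 ⟨(u, v), Finset.mem_product.2 ⟨hu, hv⟩, rfl⟩, ?_⟩
      simpa using sub_ne_zero.2 hne
    obtain ⟨i, hi⟩ := hφ _ hmem
    apply hi
    have h1 := congrFun h i
    simp only [P] at h1
    simp only [Pi.sub_apply, smul_sub, Finset.sum_sub_distrib, h1, sub_self]
  have h1 := hp (U.image P) (Finset.card_image_le.trans hU)
  rw [Finset.card_image_of_injOn hinj] at h1
  refine h1.trans (Nat.add_le_add_right (Finset.sum_le_sum fun y _ => ?_) _)
  have h2 : (U.image P).image (fun (f : Fin (2 * m + 1) → La) => fun i => E y (f i))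
      = (U.image (fun (f : J → La) => fun j => E y (f j))).image Q := by
    rw [Finset.image_image, Finset.image_image]
    congr 1
    funext f i
    simp only [P, Q, Function.comp, map_sum, map_smul]
  rw [h2]
  exact Finset.card_image_le

end proj

end Vale.Agent.P318.Vec
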