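import Vale.Agent.P318.H664.GUV
import Vale.Agent.P318.H664.Vec

/-!
# The concrete `F_2`-linear condenser (sections 2 and 3 of the P318 text)
-/

namespace Vale.Agent.P318.Cond
open Finset Polynomial Vale.Agent.P318.GUV Vale.Agent.P318.Vec

lemma EE_zero_card {K L : Type*} [Field K] [Field L] [Algebra K L] [Fintype K] [DecidableEq K]
    (pb : PowerBasis K L) (m : ℕ) (hm : 1 ≤ m) (f : L) (hf : f ≠ 0) :
    (univ.filter (fun y : K => EE pb m y f = 0)).card ≤ pb.dim - 1 := by
  classical
  have hne : rep pb f ≠ 0 := by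
    intro h
    have := rep_aeval pb f
    rw [h, map_zero] at this
    exact hf this.symm
  have h1 : univ.filter (fun y : K => EE pb m y f = 0) ⊆ (rep pb f).roots.toFinset := by
    intro y hy
    rw [Multiset.mem_toFinset, mem_roots hne, IsRoot.def]
    have h2 := congrFun (Finset.mem_filter.1 hy).2 ⟨0, hm⟩
    simpa [EE] using h2
  exact (Finset.card_le_card h1).trans ((Multiset.toFinset_card_le _).trans
    ((Polynomial.card_roots' _).trans (rep_deg pb f)))

/-- **The condenser.** `q = 2^e` seeds, `La = F_2^{n e}`, `A = F_2^{m e}`. -/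
theorem exists_cond (e n m : ℕ) (he : e ≠ 0) (hn : 2 ≤ n) (hm : 1 ≤ m) :
    ∃ E : Fin (2 ^ e) → ((Fin (n * e) → ZMod 2) →ₗ[ZMod 2] (Fin (m * e) → ZMod 2)),
      (∀ S : Finset (Fin (2 ^ e)), Less (fun y f => E y f) S (2 ^ m) ((n - 1) * m)) ∧
      (∀ f, f ≠ 0 → (univ.filter (fun y => E y f = 0)).card ≤ n - 1) := by
  classical
  let K := GaloisField 2 e
  have : NeZero n := ⟨by omega⟩
  let L := FiniteField.Extension K 2 n
  have hKfin : Module.finrank (ZMod 2) K = e := GaloisField.finrank 2 he
  have hfr : Module.finrank K L = n := FiniteField.finrank_extension K 2 n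
  have hLfin : Module.finrank (ZMod 2) L = n * e := by
    have := FiniteField.finrank_zmod_extension K 2 n
    rw [hKfin] at this
    rw [mul_comm n e]
    exact this
  have : CharP L 2 := by
    have : Algebra (ZMod 2) L := inferInstance
    exact charP_of_injective_algebraMap (algebraMap (ZMod 2) L).injective 2
  have : Fintype K := Fintype.ofFinite K
  have hKc : Fintype.card K = 2 ^ e := by
    rw [Fintype.card_eq_nat_card]; exact GaloisField.card 2 e he
  have : Algebra.IsSeparable K L := inferInstance
  let pb : PowerBasis K L := Field.powerBasisOfFiniteOfSeparable K L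
  have hdim : pb.dim = n := pb.finrank.symm.trans hfr
  let σL : (Fin (n * e) → ZMod 2) ≃ₗ[ZMod 2] L := LinearEquiv.ofFinrankEq _ _ (by
    rw [hLfin]; simp)
  let σA : (Fin m → K) ≃ₗ[ZMod 2] (Fin (m * e) → ZMod 2) := LinearEquiv.ofFinrankEq _ _ (by
    rw [Module.finrank_pi_fintype]; simp [hKfin])
  let σK : Fin (2 ^ e) ≃ K := (Fintype.equivFinOfCardEq hKc).symm
  let EL : K → (L →ₗ[ZMod 2] (Fin m → K)) := fun y =>
    AddMonoidHom.toZModLinearMap 2
      { toFun := EE pb m y
        map_zero' := by
          have h := EE_add pb m y 0 0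
          rw [add_zero] at h
          exact left_eq_add.1 h
        map_add' := EE_add pb m y }
  have hEL : ∀ y x, EL y x = EE pb m y x := fun _ _ => rfl
  refine ⟨fun y => σA.toLinearMap ∘ₗ (EL (σK y)) ∘ₗ σL.toLinearMap, ?_, ?_⟩
  · intro S U hU
    have h1 := guv_core pb (by rw [hdim]; exact hn) m (S.image σK) (U.image σL)
      (Finset.card_image_le.trans hU)
    rw [Finset.card_image_of_injective _ σK.injective,
      Finset.card_image_of_injective _ σL.injective, hdim,
      Finset.sum_image (fun a _ b _ h => σK.injective h)] at h1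
    have h2 : ∀ y ∈ S, ((U.image σL).image (EE pb m (σK y))).card
        = (U.image (fun f => (σA.toLinearMap ∘ₗ (EL (σK y)) ∘ₗ σL.toLinearMap) f)).card := by
      intro y _
      have h3 : U.image (fun f => (σA.toLinearMap ∘ₗ (EL (σK y)) ∘ₗ σL.toLinearMap) f)
          = ((U.image σL).image (EE pb m (σK y))).image σA := by
        rw [Finset.image_image, Finset.image_image]
        rfl
      rw [h3, Finset.card_image_of_injective _ σA.injective]
    rw [Finset.sum_congr rfl h2, Nat.sub_mul] at h1
    beta_reduce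
    omega
  · intro f hf
    have h1 := EE_zero_card pb m hm (σL f) (by simpa using hf)
    rw [hdim] at h1
    refine le_trans ?_ h1
    apply Finset.card_le_card_of_injOn σK
    · intro y hy
      simp only [Finset.coe_filter, Set.mem_ofPred_eq, Finset.mem_univ, true_and] at hy ⊢
      have h2 : σA (EL (σK y) (σL f)) = 0 := hy
      rw [map_eq_zero_iff _ σA.injective] at h2
      exact h2
    · exact σK.injective.injOn

/-- (2.2), vector-valued -/
lemma zero_card_vec {La A ι : Type*} [Fintype ι] [DecidableEq A] [AddCommGroup La] [AddCommGroup A]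
    [Module (ZMod 2) La] [Module (ZMod 2) A] (E : ι → (La →ₗ[ZMod 2] A)) (c : ℕ)
    (hE : ∀ f, f ≠ 0 → (univ.filter (fun y => E y f = 0)).card ≤ c)
    (J : Type*) [Fintype J] (f : J → La) (hf : f ≠ 0) :
    (univ.filter (fun y => (fun j => E y (f j)) = 0)).card ≤ c := by
  classical
  obtain ⟨j0, hj0⟩ := Function.ne_iff.1 hf
  refine le_trans (Finset.card_le_card ?_) (hE (f j0) hj0)
  intro y hy
  simp only [Finset.mem_filter, Finset.mem_univ, true_and] at hy ⊢
  exact congrFun hy j0

/-- the condenser, with the vector-valued properties -/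
theorem exists_cond_vec (e n m : ℕ) (he : e ≠ 0) (hn : 2 ≤ n) (hm : 1 ≤ m) :
    ∃ E : Fin (2 ^ e) → ((Fin (n * e) → ZMod 2) →ₗ[ZMod 2] (Fin (m * e) → ZMod 2)),
      (∀ (S : Finset (Fin (2 ^ e))) (J : Type) [Fintype J],
        Less (fun y (f : J → Fin (n * e) → ZMod 2) => fun j => E y (f j)) S (2 ^ m)
          ((2 * m + 1) * ((n - 1) * m))) ∧
      (∀ (J : Type) [Fintype J] (f : J → Fin (n * e) → ZMod 2), f ≠ 0 →
        (univ.filter (fun y => (fun j => E y (f j)) = 0)).card ≤ n - 1) := by
  classical
  obtain ⟨E, h1, h2⟩ := exists_cond e n m he hn hm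
  refine ⟨E, fun S J _ => ?_, fun J _ f hf => zero_card_vec E (n - 1) h2 J f hf⟩
  exact Less.vec E S m _ (h1 S) J

/-- precomposition with an injection -/
lemma Less.comp_inj {ι La La' A : Type*} [DecidableEq A] (E : ι → La → A) (S : Finset ι) (W ℓ : ℕ)
    (hE : Less E S W ℓ) (g : La' → La) (hg : Function.Injective g) :
    Less (fun y f => E y (g f)) S W ℓ := by
  classical
  intro U hU
  have h1 := hE (U.image g) (Finset.card_image_le.trans hU)
  rw [Finset.card_image_of_injective _ hg] at h1
  have h2 : ∀ y ∈ S, ((U.image g).image (E y)).card = (U.image (fun f => E y (g f))).card := by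
    intro y _
    rw [Finset.image_image]
    rfl
  rw [Finset.sum_congr rfl h2] at h1
  exact h1

/-- **MODULE GUV + VEC, final form** (design v2): seeds `y ∈ Fin (2^e)`, `n₁ = m e`,
condensers `F_2^{n₁ × n₁} → F_2^{n₁}`, vector-valued lossless for sets of size `≤ 2^m` on every seed
set `S` with loss `(2m+1)(n-1)m` (absolute), a nonzero vector is killed by at most `n-1` seeds. -/
theorem exists_cond_sq (e n m n1 : ℕ) (he : e ≠ 0) (hn : 2 ≤ n) (hm : 1 ≤ m) (hn1 : n1 = m * e)
    (hsq : n1 * n1 ≤ n * e) :
    ∃ E : Fin (2 ^ e) → ((Fin n1 × Fin n1 → ZMod 2) →ₗ[ZMod 2] (Fin n1 → ZMod 2)),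
      (∀ (S : Finset (Fin (2 ^ e))) (J : Type) [Fintype J],
        Less (fun y (f : J → Fin n1 × Fin n1 → ZMod 2) => fun j => E y (f j)) S (2 ^ m)
          ((2 * m + 1) * ((n - 1) * m))) ∧
      (∀ (J : Type) [Fintype J] (f : J → Fin n1 × Fin n1 → ZMod 2), f ≠ 0 →
        (univ.filter (fun y => (fun j => E y (f j)) = 0)).card ≤ n - 1) := by
  classical
  obtain ⟨E, h1, h2⟩ := exists_cond_vec e n m he hn hm
  subst hn1
  have hemb : Nonempty (Fin (m * e) × Fin (m * e) ↪ Fin (n * e)) := by
    apply Function.Embedding.nonempty_of_card_le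
    simpa using hsq
  obtain ⟨j⟩ := hemb
  let g : (Fin (m * e) × Fin (m * e) → ZMod 2) →ₗ[ZMod 2] (Fin (n * e) → ZMod 2) :=
    { toFun := fun f => Function.extend j f 0
      map_add' := by
        intro f f'
        funext i
        by_cases h : ∃ a, j a = i
        · obtain ⟨a, rfl⟩ := h
          simp [j.injective.extend_apply]
        · simp [Function.extend_apply' _ _ _ h]
      map_smul' := by
        intro c f
        funext i
        by_cases h : ∃ a, j a = i
        · obtain ⟨a, rfl⟩ := h
          simp [j.injective.extend_apply]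
        · simp [Function.extend_apply' _ _ _ h] }
  have hg : Function.Injective g := by
    intro f f' h
    funext a
    have := congrFun h (j a)
    simpa [g, j.injective.extend_apply] using this
  refine ⟨fun y => E y ∘ₗ g, fun S J _ => ?_, fun J _ f hf => ?_⟩
  · have h3 := Less.comp_inj _ S _ _ (h1 S J) (fun f : J → Fin (m * e) × Fin (m * e) → ZMod 2 =>
      fun i => g (f i)) (by
        intro f f' h
        funext i
        exact hg (congrFun h i))
    exact h3
  · have h4 := h2 J (fun i => g (f i)) (by
      intro h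
      apply hf
      funext i
      have := congrFun h i
      simp only [Pi.zero_apply] at this ⊢
      exact hg (by rw [this, map_zero]))
    exact h4

end Vale.Agent.P318.Cond
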