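import Mathlib

/-!
# GUV condenser, h = 2, polynomial method
-/

namespace Vale.Agent.P318.GUV
open Polynomial Finset

section rep
variable {K L : Type*} [Field K] [Field L] [Algebra K L]

/-- the representative polynomial of degree `< dim` of an element of `L = K(gen)` -/
noncomputable def rep (pb : PowerBasis K L) (x : L) : K[X] :=
  ∑ i : Fin pb.dim, C (pb.basis.repr x i) * X ^ (i : ℕ)

lemma rep_deg (pb : PowerBasis K L) (x : L) : (rep pb x).natDegree ≤ pb.dim - 1 := by
  unfold rep
  apply Polynomial.natDegree_sum_le_of_forall_le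
  intro i _
  refine (natDegree_C_mul_X_pow_le _ _).trans ?_
  have := i.2
  omega

lemma rep_aeval (pb : PowerBasis K L) (x : L) : aeval pb.gen (rep pb x) = x := by
  unfold rep
  rw [map_sum]
  conv_rhs => rw [← pb.basis.sum_repr x]
  refine Finset.sum_congr rfl fun i _ => ?_
  rw [pb.basis_eq_pow, map_mul, map_pow, aeval_C, aeval_X, Algebra.smul_def]

lemma rep_add (pb : PowerBasis K L) (x y : L) : rep pb (x + y) = rep pb x + rep pb y := by
  unfold rep
  rw [← Finset.sum_add_distrib]
  refine Finset.sum_congr rfl fun i _ => ?_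
  simp only [map_add, Finsupp.add_apply]
  ring

end rep

lemma bits_sum (m : ℕ) : ∀ j : ℕ, j < 2 ^ m →
    ∑ i ∈ range m, (if j.testBit i then 2 ^ i else 0) = j := by
  induction m with
  | zero => intro j hj; simp at hj; simp [hj]
  | succ m ih =>
    intro j hj
    rw [Finset.sum_range_succ']
    have h1 : j / 2 < 2 ^ m := by rw [pow_succ] at hj; omega
    have h2 := ih (j / 2) h1
    have h3 : ∑ i ∈ range m, (if j.testBit (i + 1) then 2 ^ (i + 1) else 0)
        = 2 * ∑ i ∈ range m, (if (j / 2).testBit i then 2 ^ i else 0) := by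
      rw [Finset.mul_sum]
      refine Finset.sum_congr rfl fun i _ => ?_
      rw [Nat.testBit_succ]
      split_ifs <;> ring
    rw [h3, h2]
    simp only [Nat.testBit_zero, pow_zero, decide_eq_true_eq]
    split_ifs with h <;> omega

section main
variable {K L : Type*} [Field K] [Field L] [Algebra K L]

/-- `E_y(x) = (x(y), x²(y), x⁴(y), …)` -/
noncomputable def EE (pb : PowerBasis K L) (m : ℕ) (y : K) (x : L) : Fin m → K :=
  fun i => (rep pb (x ^ (2 ^ (i : ℕ)))).eval y

/-- the monomial `M_j(v) = ∏ v_i^{bit_i j}` -/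
def mon {R : Type*} [CommSemiring R] (m : ℕ) (j : ℕ) (v : Fin m → R) : R :=
  ∏ i : Fin m, (if j.testBit i then v i else 1)

lemma mon_pow (m j : ℕ) (hj : j < 2 ^ m) {R : Type*} [CommSemiring R] (x : R) :
    mon m j (fun i => x ^ (2 ^ (i : ℕ))) = x ^ j := by
  unfold mon
  have h1 : ∀ i : Fin m, (if j.testBit i then x ^ (2 ^ (i : ℕ)) else 1)
      = x ^ (if j.testBit i then 2 ^ (i : ℕ) else 0) := by
    intro i; split_ifs <;> simp
  rw [Finset.prod_congr rfl (fun i _ => h1 i), Finset.prod_pow_eq_pow_sum]
  congr 1
  rw [Fin.sum_univ_eq_sum_range (fun i => if j.testBit i then 2 ^ i else 0)]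
  exact bits_sum m j hj

lemma EE_add [CharP K 2] [CharP L 2] (pb : PowerBasis K L) (m : ℕ) (y : K) (x x' : L) :
    EE pb m y (x + x') = EE pb m y x + EE pb m y x' := by
  funext i
  simp only [EE, Pi.add_apply]
  rw [add_pow_char_pow, rep_add, eval_add]

/-- step A: if the family `p` vanishes on all the points, `p_j(gen) = 0` -/
lemma stepA (pb : PowerBasis K L) (m : ℕ) (S : Finset K) (U : Finset L) (hU : U.card ≤ 2 ^ m)
    (A : ℕ) (hA : A + (pb.dim - 1) * m ≤ S.card) (p : ℕ → K[X])
    (hd : ∀ j < U.card, (p j).natDegree < A)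
    (hv : ∀ y ∈ S, ∀ x ∈ U, ∑ j ∈ range U.card, (p j).eval y * mon m j (EE pb m y x) = 0) :
    ∀ j < U.card, aeval pb.gen (p j) = 0 := by
  classical
  have h1 : ∀ x ∈ U, ∑ j ∈ range U.card, aeval pb.gen (p j) * x ^ j = 0 := by
    intro x hx
    set R : K[X] := ∑ j ∈ range U.card, p j * mon m j (fun i => rep pb (x ^ (2 ^ (i : ℕ))))
      with hR
    have hR0 : R = 0 := by
      rcases Nat.eq_zero_or_pos U.card with h0 | h0
      · rw [hR, h0]; simp
      have hA1 : 0 < A := lt_of_le_of_lt (Nat.zero_le _) (hd 0 h0)
      apply Polynomial.eq_zero_of_natDegree_lt_card_of_eval_eq_zero' R S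
      · intro y hy
        rw [hR, eval_finsetSum, ← hv y hy x hx]
        refine Finset.sum_congr rfl fun j _ => ?_
        rw [eval_mul]
        congr 1
        unfold mon EE
        rw [eval_prod]
        refine Finset.prod_congr rfl fun i _ => ?_
        split_ifs <;> simp
      · have hb : R.natDegree ≤ (A - 1) + (pb.dim - 1) * m := by
          rw [hR]
          apply Polynomial.natDegree_sum_le_of_forall_le
          intro j hj
          refine natDegree_mul_le.trans (Nat.add_le_add ?_ ?_)
          · have := hd j (Finset.mem_range.1 hj)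
            omega
          · unfold mon
            refine (Polynomial.natDegree_prod_le _ _).trans ?_
            refine (Finset.sum_le_card_nsmul _ _ (pb.dim - 1) fun i _ => ?_).trans ?_
            · split_ifs
              · exact rep_deg pb _
              · simp
            · simp [mul_comm]
        omega
    have h2 := congrArg (aeval pb.gen) hR0
    rw [hR, map_sum, map_zero] at h2
    rw [← h2]
    refine Finset.sum_congr rfl fun j hj => ?_
    rw [map_mul]
    congr 1
    have hj2 : j < 2 ^ m := lt_of_lt_of_le (Finset.mem_range.1 hj) hU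
    rw [← mon_pow m j hj2 x]
    unfold mon
    rw [map_prod]
    refine Finset.prod_congr rfl fun i _ => ?_
    split_ifs
    · rw [rep_aeval]
    · simp
  set P : L[X] := ∑ j ∈ range U.card, C (aeval pb.gen (p j)) * X ^ j with hP
  have hP0 : P = 0 := by
    rcases Nat.eq_zero_or_pos U.card with h0 | h0
    · rw [hP, h0]; simp
    apply Polynomial.eq_zero_of_natDegree_lt_card_of_eval_eq_zero' P U
    · intro x hx
      rw [hP, eval_finsetSum, ← h1 x hx]
      refine Finset.sum_congr rfl fun j _ => ?_
      simp
    · have : P.natDegree ≤ U.card - 1 := by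
        rw [hP]
        apply Polynomial.natDegree_sum_le_of_forall_le
        intro j hj
        refine (natDegree_C_mul_X_pow_le _ _).trans ?_
        have := Finset.mem_range.1 hj
        omega
      omega
  intro j hj
  have h3 : P.coeff j = aeval pb.gen (p j) := by
    rw [hP, finsetSum_coeff]
    simp only [coeff_C_mul, coeff_X_pow]
    rw [Finset.sum_eq_single j]
    · simp
    · intro b _ hb
      simp [Ne.symm hb]
    · intro h
      exact absurd (Finset.mem_range.2 hj) h
  rw [← h3, hP0, coeff_zero]

lemma stepB (pb : PowerBasis K L) (m : ℕ) (S : Finset K) (U : Finset L) (hU : U.card ≤ 2 ^ m)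
    (h2 : 2 ≤ pb.dim)
    (A : ℕ) (hA : A + (pb.dim - 1) * m ≤ S.card) : ∀ (D : ℕ) (p : ℕ → K[X]),
    (∑ j ∈ range U.card, (p j).natDegree ≤ D) →
    (∀ j < U.card, (p j).natDegree < A) →
    (∀ y ∈ S, ∀ x ∈ U, ∑ j ∈ range U.card, (p j).eval y * mon m j (EE pb m y x) = 0) →
    ∀ j < U.card, p j = 0 := by
  classical
  have := pb.finite
  have hint : IsIntegral K pb.gen := pb.isIntegral_gen
  set μ := minpoly K pb.gen with hμ
  have hmon : μ.Monic := minpoly.monic hint
  have hirr : Irreducible μ := minpoly.irreducible hint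
  have hdeg : μ.natDegree = pb.dim := pb.natDegree_minpoly
  have hroot : ∀ y : K, μ.eval y ≠ 0 := by
    intro y hy
    have h3 := Polynomial.degree_eq_one_of_irreducible_of_root hirr (x := y) hy
    have h4 : μ.natDegree = 1 := natDegree_eq_of_degree_eq_some h3
    omega
  intro D
  induction D with
  | zero =>
    intro p hs hd hv j hj
    by_contra hne
    have h5 := stepA pb m S U hU A hA p hd hv j hj
    have h6 : μ ∣ p j := minpoly.dvd K _ h5
    have h7 := Polynomial.natDegree_le_of_dvd h6 hne
    have h8 : (p j).natDegree ≤ ∑ j ∈ range U.card, (p j).natDegree :=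
      Finset.single_le_sum (f := fun j => (p j).natDegree) (fun _ _ => Nat.zero_le _)
        (Finset.mem_range.2 hj)
    omega
  | succ D ih =>
    intro p hs hd hv
    by_contra hcon
    push Not at hcon
    obtain ⟨j0, hj0, hne⟩ := hcon
    have h5 := stepA pb m S U hU A hA p hd hv
    have h6 : ∀ j < U.card, p j = μ * (p j /ₘ μ) := by
      intro j hj
      obtain ⟨c, hc⟩ := minpoly.dvd K _ (h5 j hj)
      rw [← hμ] at hc
      have : p j /ₘ μ = c := by
        rw [hc]; exact mul_divByMonic_cancel_left c hmon
      rw [this]; exact hc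
    have h7 : ∀ j < U.card, (p j /ₘ μ).natDegree ≤ (p j).natDegree := by
      intro j _
      rw [natDegree_divByMonic _ hmon]; omega
    have h9 : ∀ j < U.card, p j /ₘ μ = 0 := by
      apply ih
      · have h8 : ∑ j ∈ range U.card, (p j /ₘ μ).natDegree < ∑ j ∈ range U.card, (p j).natDegree := by
          apply Finset.sum_lt_sum
          · intro j hj
            exact h7 j (Finset.mem_range.1 hj)
          · refine ⟨j0, Finset.mem_range.2 hj0, ?_⟩
            rw [natDegree_divByMonic _ hmon]
            have h10 : μ ∣ p j0 := minpoly.dvd K _ (h5 j0 hj0)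
            have h11 := Polynomial.natDegree_le_of_dvd h10 hne
            omega
        omega
      · intro j hj
        exact lt_of_le_of_lt (h7 j hj) (hd j hj)
      · intro y hy x hx
        have h12 := hv y hy x hx
        have h13 : ∑ j ∈ range U.card, (p j).eval y * mon m j (EE pb m y x)
            = μ.eval y * ∑ j ∈ range U.card, (p j /ₘ μ).eval y * mon m j (EE pb m y x) := by
          rw [Finset.mul_sum]
          refine Finset.sum_congr rfl fun j hj => ?_
          conv_lhs => rw [h6 j (Finset.mem_range.1 hj)]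
          rw [eval_mul]; ring
        rw [h13] at h12
        rcases mul_eq_zero.1 h12 with h | h
        · exact absurd h (hroot y)
        · exact h
    apply hne
    rw [h6 j0 hj0, h9 j0 hj0, mul_zero]

/-- **GUV with h = 2** (Guruswami–Umans–Vadhan) -/
theorem guv_core [DecidableEq K] (pb : PowerBasis K L) (h2 : 2 ≤ pb.dim) (m : ℕ) (S : Finset K)
    (U : Finset L) (hU : U.card ≤ 2 ^ m) :
    (S.card - (pb.dim - 1) * m) * U.card ≤ ∑ y ∈ S, (U.image (EE pb m y)).card := by
  classical
  by_contra hcon
  push Not at hcon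
  set A := S.card - (pb.dim - 1) * m with hA
  have hApos : 0 < A := by
    rcases Nat.eq_zero_or_pos A with h | h
    · rw [h] at hcon; simp at hcon
    · exact h
  set T := S.sigma (fun y => U.image (EE pb m y)) with hT
  have hTc : T.card < A * U.card := by rw [hT, Finset.card_sigma]; exact hcon
  let Φ : (Fin U.card → Fin A → K) →ₗ[K] (T → K) :=
    { toFun := fun c t => ∑ j : Fin U.card, (∑ a : Fin A, c j a * t.1.1 ^ (a : ℕ)) * mon m j t.1.2
      map_add' := by
        intro c c'
        funext t
        simp only [Pi.add_apply, add_mul, Finset.sum_add_distrib]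
      map_smul' := by
        intro r c
        funext t
        simp only [Pi.smul_apply, smul_eq_mul, RingHom.id_apply, Finset.mul_sum, Finset.sum_mul,
          mul_assoc] }
  have hker : LinearMap.ker Φ ≠ ⊥ := by
    apply LinearMap.ker_ne_bot_of_finrank_lt
    rw [Module.finrank_fintype_fun_eq_card, Fintype.card_coe]
    rw [Module.finrank_pi_fintype]
    simp only [Module.finrank_fintype_fun_eq_card, Fintype.card_fin, Finset.sum_const,
      Finset.card_univ, smul_eq_mul]
    rw [mul_comm]; exact hTc
  obtain ⟨c, hc, hc0⟩ := (Submodule.ne_bot_iff _).1 hker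
  let p : ℕ → K[X] := fun j => if h : j < U.card then ∑ a : Fin A, C (c ⟨j, h⟩ a) * X ^ (a : ℕ) else 0
  have hpe : ∀ j : Fin U.card, ∀ y : K, (p j).eval y = ∑ a : Fin A, c j a * y ^ (a : ℕ) := by
    intro j y
    simp only [p, j.2, dif_pos, eval_finsetSum, eval_mul, eval_C, eval_pow, eval_X, Fin.eta]
  have hp0 : ∀ j < U.card, p j = 0 := by
    apply stepB pb m S U hU h2 A (by omega) _ p le_rfl
    · intro j hj
      simp only [p, hj, dif_pos]
      have : (∑ a : Fin A, C (c ⟨j, hj⟩ a) * X ^ (a : ℕ) : K[X]).natDegree ≤ A - 1 := by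
        apply Polynomial.natDegree_sum_le_of_forall_le
        intro a _
        refine (natDegree_C_mul_X_pow_le _ _).trans ?_
        have := a.2
        omega
      omega
    · intro y hy x hx
      have hmem : (⟨y, EE pb m y x⟩ : (_ : K) × (Fin m → K)) ∈ T := by
        rw [hT, Finset.mem_sigma]
        exact ⟨hy, Finset.mem_image_of_mem _ hx⟩
      have h3 := congrFun (LinearMap.mem_ker.1 hc) ⟨_, hmem⟩
      simp only [Φ, LinearMap.coe_mk, AddHom.coe_mk, Pi.zero_apply] at h3
      rw [← h3, ← Fin.sum_univ_eq_sum_range (fun j => (p j).eval y * mon m j (EE pb m y x))]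
      refine Finset.sum_congr rfl fun j _ => ?_
      rw [hpe]
  apply hc0
  funext j a
  have h4 := hp0 j j.2
  have h5 : (p j).coeff a = c j a := by
    simp only [p, j.2, dif_pos, Fin.eta, finsetSum_coeff, coeff_C_mul, coeff_X_pow]
    rw [Finset.sum_eq_single a]
    · simp
    · intro b _ hb
      have : (a : ℕ) ≠ (b : ℕ) := fun h => hb (Fin.ext h.symm)
      simp [this]
    · intro h; exact absurd (Finset.mem_univ a) h
  rw [← h5, h4]; simp

end main
end Vale.Agent.P318.GUV
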