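import Vale.Agent.P318.H664.Cond

/-!
# The concrete two-coordinate operators (design v2)

`X = (κ → Fin n₁) → ZMod 2`; `opl l r E` reads the full `n₁ × n₁` slice at the coordinates `l, r`,
applies `E`, writes the result to the coordinate `l`, with `r`-index `0`.
-/

namespace Vale.Agent.P318.Op
open Finset Function Vale.Agent.P318.Vec Vale.Agent.P318.Cond

variable {κ : Type} [Fintype κ] [DecidableEq κ] {n1 : ℕ} [NeZero n1]

/-- the state space -/
abbrev XX (κ : Type) (n1 : ℕ) := (κ → Fin n1) → ZMod 2

/-- condensers -/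
abbrev EE (n1 : ℕ) := (Fin n1 × Fin n1 → ZMod 2) →ₗ[ZMod 2] (Fin n1 → ZMod 2)

/-- set the coordinates `l`, `r` of `j` to `p` -/
def set2 (l r : κ) (j : κ → Fin n1) (p : Fin n1 × Fin n1) : κ → Fin n1 :=
  update (update j l p.1) r p.2

/-- the slice map `X → (J → F_2^{n₁ × n₁})` (`J` = all the index tuples) -/
def slc (l r : κ) : XX κ n1 →ₗ[ZMod 2] ((κ → Fin n1) → Fin n1 × Fin n1 → ZMod 2) where
  toFun x j p := x (set2 l r j p)
  map_add' _ _ := rfl
  map_smul' _ _ := rfl

/-- the operator -/
def opl (l r : κ) (E : EE n1) : XX κ n1 →ₗ[ZMod 2] XX κ n1 where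
  toFun x j := if j r = 0 then E (slc l r x j) (j l) else 0
  map_add' x y := by
    funext j
    simp only [Pi.add_apply, map_add]
    split_ifs <;> simp
  map_smul' c x := by
    funext j
    simp only [Pi.smul_apply, map_smul, RingHom.id_apply]
    split_ifs <;> simp

omit [Fintype κ] in
lemma opl_apply (l r : κ) (E : EE n1) (x : XX κ n1) (j : κ → Fin n1) :
    opl l r E x j = if j r = 0 then E (slc l r x j) (j l) else 0 := rfl

omit [Fintype κ] [NeZero n1] in
lemma slc_apply (l r : κ) (x : XX κ n1) (j : κ → Fin n1) (p : Fin n1 × Fin n1) :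
    slc l r x j p = x (set2 l r j p) := rfl

omit [Fintype κ] [NeZero n1] in
lemma set2_self (l r : κ) (j : κ → Fin n1) : set2 l r j (j l, j r) = j := by
  simp [set2]

omit [Fintype κ] [NeZero n1] in
lemma set2_set2 (l r : κ) (h : l ≠ r) (j : κ → Fin n1) (p q : Fin n1 × Fin n1) :
    set2 l r (set2 l r j q) p = set2 l r j p := by
  unfold set2
  funext i
  by_cases hr : i = r
  · subst hr; simp
  · by_cases hl : i = l
    · subst hl; simp [hr]
    · simp [hr, hl]

omit [Fintype κ] [NeZero n1] in
lemma set2_l (l r : κ) (h : l ≠ r) (j : κ → Fin n1) (p : Fin n1 × Fin n1) :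
    set2 l r j p l = p.1 := by
  simp [set2, h]

omit [Fintype κ] [NeZero n1] in
lemma set2_r (l r : κ) (j : κ → Fin n1) (p : Fin n1 × Fin n1) :
    set2 l r j p r = p.2 := by
  simp [set2]

omit [Fintype κ] [NeZero n1] in
lemma slc_set2 (l r : κ) (h : l ≠ r) (x : XX κ n1) (j : κ → Fin n1) (q : Fin n1 × Fin n1) :
    slc l r x (set2 l r j q) = slc l r x j := by
  funext p
  rw [slc_apply, slc_apply, set2_set2 l r h]

omit [Fintype κ] [NeZero n1] in
lemma slc_injective (l r : κ) : Injective (slc l r : XX κ n1 → _) := by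
  intro x y h
  funext j
  have := congrFun (congrFun h j) (j l, j r)
  rwa [slc_apply, slc_apply, set2_self] at this

omit [Fintype κ] in
/-- `opl` determines all the values of `E` on the slices -/
lemma opl_eq_iff (l r : κ) (h : l ≠ r) (E : EE n1) (x y : XX κ n1) :
    opl l r E x = opl l r E y ↔ ∀ j, E (slc l r x j) = E (slc l r y j) := by
  constructor
  · intro hxy j
    funext i
    have h1 := congrFun hxy (set2 l r j (i, 0))
    rw [opl_apply, opl_apply, set2_r, if_pos rfl, if_pos rfl, set2_l l r h, slc_set2 l r h,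
      slc_set2 l r h] at h1
    exact h1
  · intro hxy
    funext j
    rw [opl_apply, opl_apply, hxy j]

omit [Fintype κ] in
lemma opl_eq_zero_iff (l r : κ) (h : l ≠ r) (E : EE n1) (x : XX κ n1) :
    opl l r E x = 0 ↔ ∀ j, E (slc l r x j) = 0 := by
  have := opl_eq_iff l r h E x 0
  rw [map_zero] at this
  rw [this]
  simp

/-- losslessness of the operators on all of `X` -/
theorem opl_less {ι : Type*} (E : ι → EE n1) (S : Finset ι) (W ℓ : ℕ)
    (hE : ∀ (J : Type) [Fintype J],
      Less (fun y (f : J → Fin n1 × Fin n1 → ZMod 2) => fun j => E y (f j)) S W ℓ)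
    (l r : κ) (h : l ≠ r) : Less (fun y (x : XX κ n1) => opl l r (E y) x) S W ℓ := by
  classical
  have h1 := Less.comp_inj _ S W ℓ (hE (κ → Fin n1)) (slc l r : XX κ n1 → _) (slc_injective l r)
  intro U hU
  have h2 := h1 U hU
  refine h2.trans (Nat.add_le_add_right (Finset.sum_le_sum fun y _ => ?_) _)
  -- the two images have the same cardinality
  have h3 : ∀ x ∈ U, ∀ x' ∈ U, opl l r (E y) x = opl l r (E y) x' →
      (fun j => E y (slc l r x j)) = (fun j => E y (slc l r x' j)) := by
    intro x _ x' _ hxx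
    funext j
    exact (opl_eq_iff l r h (E y) x x').1 hxx j
  -- choose representatives
  have h4 : U.image (fun x => fun j => E y (slc l r x j)) ⊆
      (U.image (fun x => opl l r (E y) x)).image
        (fun z => fun j => fun i => z (set2 l r j (i, 0))) := by
    intro F hF
    obtain ⟨x, hx, rfl⟩ := Finset.mem_image.1 hF
    rw [Finset.image_image]
    refine Finset.mem_image.2 ⟨x, hx, ?_⟩
    funext j i
    simp only [Function.comp]
    rw [opl_apply, set2_r, if_pos rfl, set2_l l r h, slc_set2 l r h]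
  exact (Finset.card_le_card h4).trans Finset.card_image_le

/-- a nonzero vector of a labelled family is killed by few seeds -/
theorem opl_zero_card {ι : Type*} [Fintype ι] (E : ι → EE n1) (c : ℕ)
    (hE : ∀ (J : Type) [Fintype J] (f : J → Fin n1 × Fin n1 → ZMod 2), f ≠ 0 →
        (univ.filter (fun y => (fun j => E y (f j)) = 0)).card ≤ c)
    (l r : κ) (h : l ≠ r) (x : XX κ n1) (hx : x ≠ 0) :
    (univ.filter (fun y => opl l r (E y) x = 0)).card ≤ c := by
  classical
  have h1 : slc l r x ≠ 0 := by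
    intro h0
    apply hx
    apply slc_injective l r
    rw [h0, map_zero]
  refine le_trans (Finset.card_le_card ?_) (hE (κ → Fin n1) (slc l r x) h1)
  intro y hy
  simp only [Finset.mem_filter, Finset.mem_univ, true_and] at hy ⊢
  funext j
  exact (opl_eq_zero_iff l r h (E y) x).1 hy j

/-- losslessness on `B`-tuples of vectors (labels, `X × X`, …) -/
theorem opl_less_pi {ι : Type*} (E : ι → EE n1) (S : Finset ι) (W ℓ : ℕ)
    (hE : ∀ (J : Type) [Fintype J],
      Less (fun y (f : J → Fin n1 × Fin n1 → ZMod 2) => fun j => E y (f j)) S W ℓ)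
    (l r : κ) (h : l ≠ r) (B : Type) [Fintype B] :
    Less (fun y (x : B → XX κ n1) => fun b => opl l r (E y) (x b)) S W ℓ := by
  classical
  have h1 := Less.comp_inj _ S W ℓ (hE (B × (κ → Fin n1)))
    (fun (x : B → XX κ n1) => fun bj => slc l r (x bj.1) bj.2) (by
      intro x y hxy
      funext b
      apply slc_injective l r
      funext j
      exact congrFun hxy (b, j))
  intro U hU
  have h2 := h1 U hU
  refine h2.trans (Nat.add_le_add_right (Finset.sum_le_sum fun y _ => ?_) _)
  have h4 : U.image (fun x : B → XX κ n1 => fun (bj : B × (κ → Fin n1)) => E y (slc l r (x bj.1) bj.2)) ⊆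
      (U.image (fun x => fun b => opl l r (E y) (x b))).image
        (fun z => fun (bj : B × (κ → Fin n1)) => fun i => z bj.1 (set2 l r bj.2 (i, 0))) := by
    intro F hF
    obtain ⟨x, hx, rfl⟩ := Finset.mem_image.1 hF
    rw [Finset.image_image]
    refine Finset.mem_image.2 ⟨x, hx, ?_⟩
    funext bj i
    simp only [Function.comp]
    rw [opl_apply, set2_r, if_pos rfl, set2_l l r h, slc_set2 l r h]
  exact (Finset.card_le_card h4).trans Finset.card_image_le

omit [Fintype κ] [NeZero n1] in
lemma set2_comm (l r l' r' : κ) (h1 : l ≠ l') (h2 : l ≠ r') (h3 : r ≠ l') (h4 : r ≠ r')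
    (j : κ → Fin n1) (p p' : Fin n1 × Fin n1) :
    set2 l' r' (set2 l r j p) p' = set2 l r (set2 l' r' j p') p := by
  unfold set2
  funext i
  by_cases hr : i = r
  · subst hr; simp [h3, h4]
  · by_cases hl : i = l
    · subst hl; simp [hr, h1, h2]
    · by_cases hr' : i = r'
      · subst hr'; simp [hr, hl]
      · by_cases hl' : i = l'
        · subst hl'; simp [hr, hl, hr']
        · simp [hr, hl, hr', hl']

omit [NeZero n1] in
/-- the matrix of `E` -/
lemma E_expand (E : EE n1) (f : Fin n1 × Fin n1 → ZMod 2) (i : Fin n1) :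
    E f i = ∑ p, f p * E (Pi.single p 1) i := by
  have h1 : f = ∑ p, f p • (Pi.single p 1 : Fin n1 × Fin n1 → ZMod 2) := by
    funext q
    simp [Finset.sum_apply, Pi.single_apply]
  conv_lhs => rw [h1]
  rw [map_sum, Finset.sum_apply]
  refine Finset.sum_congr rfl fun p _ => ?_
  rw [map_smul]; rfl

omit [Fintype κ] in
/-- operators on disjoint pairs of coordinates commute -/
theorem opl_comm (l r l' r' : κ) (h1 : l ≠ l') (h2 : l ≠ r') (h3 : r ≠ l') (h4 : r ≠ r')
    (E E' : EE n1) (x : XX κ n1) :
    opl l r E (opl l' r' E' x) = opl l' r' E' (opl l r E x) := by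
  funext j
  rw [opl_apply, opl_apply, E_expand, E_expand]
  simp only [slc_apply, opl_apply]
  have e1 : ∀ p : Fin n1 × Fin n1, set2 l r j p r' = j r' := by
    intro p; simp [set2, h2.symm, h4.symm]
  have e2 : ∀ p : Fin n1 × Fin n1, set2 l r j p l' = j l' := by
    intro p; simp [set2, h1.symm, h3.symm]
  have e3 : ∀ p : Fin n1 × Fin n1, set2 l' r' j p r = j r := by
    intro p; simp [set2, h3, h4]
  have e4 : ∀ p : Fin n1 × Fin n1, set2 l' r' j p l = j l := by
    intro p; simp [set2, h1, h2]
  simp only [e1, e2, e3, e4]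
  by_cases hr : j r = 0
  · by_cases hr' : j r' = 0
    · rw [if_pos hr, if_pos hr']
      simp only [if_pos hr, if_pos hr']
      have h5 : ∀ p : Fin n1 × Fin n1, E' (slc l' r' x (set2 l r j p)) (j l')
          = ∑ p', x (set2 l' r' (set2 l r j p) p') * E' (Pi.single p' 1) (j l') := fun p =>
        E_expand E' _ _
      have h6 : ∀ p : Fin n1 × Fin n1, E (slc l r x (set2 l' r' j p)) (j l)
          = ∑ p', x (set2 l r (set2 l' r' j p) p') * E (Pi.single p' 1) (j l) := fun p =>
        E_expand E _ _
      simp only [h5, h6, Finset.sum_mul]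
      rw [Finset.sum_comm]
      refine Finset.sum_congr rfl fun p _ => Finset.sum_congr rfl fun p' _ => ?_
      rw [set2_comm l r l' r' h1 h2 h3 h4]
      ring
    · simp [hr']
  · by_cases hr' : j r' = 0 <;> simp [hr]

omit [Fintype κ] [DecidableEq κ] [NeZero n1] in
/-- the real form of losslessness -/
theorem Less.real {ι La A : Type*} [DecidableEq A] {E : ι → La → A} {S : Finset ι} {W ℓ : ℕ}
    (hE : Less E S W ℓ) (e : ℝ) (he : (ℓ : ℝ) ≤ e * S.card) (U : Finset La) (hU : U.card ≤ W) :
    (1 - e) * S.card * U.card ≤ ∑ y ∈ S, ((U.image (E y)).card : ℝ) := by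
  have h1 := hE U hU
  have h2 : (S.card : ℝ) * U.card ≤ ∑ y ∈ S, ((U.image (E y)).card : ℝ) + ℓ * U.card := by
    exact_mod_cast h1
  have h3 : (ℓ : ℝ) * U.card ≤ e * S.card * U.card :=
    mul_le_mul_of_nonneg_right he (Nat.cast_nonneg _)
  linarith

omit [Fintype κ] [DecidableEq κ] [NeZero n1] in
/-- composition of two lossless families (seeds in a product) -/
theorem Less.comp {ι ι' La A B : Type*} [DecidableEq A] [DecidableEq B]
    {E : ι → La → A} {F : ι' → A → B} {S : Finset ι} {S' : Finset ι'} {W ℓ ℓ' : ℕ}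
    (hE : Less E S W ℓ) (hF : Less F S' W ℓ') :
    Less (fun (c : ι × ι') x => F c.2 (E c.1 x)) (S ×ˢ S') W (ℓ * S'.card + ℓ' * S.card) := by
  classical
  intro U hU
  rw [Finset.card_product, Finset.sum_product]
  have h1 : ∀ c ∈ S, S'.card * (U.image (E c)).card ≤
      ∑ c' ∈ S', (U.image (fun x => F c' (E c x))).card + ℓ' * U.card := by
    intro c _
    have h2 := hF (U.image (E c)) (Finset.card_image_le.trans hU)
    simp only [Finset.image_image] at h2
    refine h2.trans (Nat.add_le_add_left (Nat.mul_le_mul_left _ Finset.card_image_le) _)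
  have h3 := Finset.sum_le_sum h1
  rw [← Finset.mul_sum, Finset.sum_add_distrib, Finset.sum_const, smul_eq_mul] at h3
  have h4 := hE U hU
  have h5 : S.card * S'.card * U.card ≤
      S'.card * ∑ y ∈ S, (U.image (E y)).card + S'.card * (ℓ * U.card) := by
    rw [← Nat.mul_add]
    calc S.card * S'.card * U.card = S'.card * (S.card * U.card) := by ring
      _ ≤ _ := Nat.mul_le_mul_left _ h4
  have h6 : (ℓ * S'.card + ℓ' * S.card) * U.card
      = S'.card * (ℓ * U.card) + S.card * (ℓ' * U.card) := by ring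
  rw [h6]
  have h7 : ∑ c ∈ S, ∑ c' ∈ S', (U.image (fun x => F c' (E c x))).card
      = ∑ x ∈ S, ∑ y ∈ S', (U.image
          ((fun (c : ι × ι') x => F c.2 (E c.1 x)) (x, y))).card := rfl
  rw [← h7]
  omega

end Vale.Agent.P318.Op
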