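import Vale.Agent.P318.H986.SpecCond
import Vale.Agent.P318.H937.Spec4

/-!
# P318: `SpecGUVh` and `SpecFAM` of `H937.Spec4`, from helper986's condenser package
-/

open Finset

namespace Vale.Agent.P318.H664

open Vale.Agent.P318.H937 Vale.Agent.P318.Vec Vale.Agent.P318.H986

/-- **SpecGUVh**: the scalar condenser with `h = 2^j`. -/
theorem spec_guvh : SpecGUVh := by
  intro j n m hj hn hm
  classical
  obtain ⟨E, hE, -⟩ := exists_condH j n m (by omega) hn hm
  refine ⟨E, fun U hU => ?_⟩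
  have h1 := hE univ U (by rwa [← pow_mul])
  rw [card_univ, Fintype.card_fin] at h1
  have h2 : ((2 ^ (2 * j) : ℕ) : ℝ) * U.card ≤
      ∑ y : Fin (2 ^ (2 * j)), ((U.image (E y)).card : ℝ)
      + (((n - 1) * (2 ^ j - 1) * m : ℕ) : ℝ) * U.card := by exact_mod_cast h1
  have h3 : (((n - 1) * (2 ^ j - 1) * m : ℕ) : ℝ) ≤ n * m * 2 ^ j := by
    have : (n - 1) * (2 ^ j - 1) * m ≤ n * m * 2 ^ j := by
      calc (n - 1) * (2 ^ j - 1) * m ≤ n * 2 ^ j * m :=
            Nat.mul_le_mul_right _ (Nat.mul_le_mul (Nat.sub_le _ _) (Nat.sub_le _ _))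
        _ = n * m * 2 ^ j := by ring
    exact_mod_cast this
  have h4 := mul_le_mul_of_nonneg_right h3 (Nat.cast_nonneg (α := ℝ) U.card)
  push_cast at h2 h4 ⊢
  nlinarith

/-- **SpecFAM**, without hypothesis. -/
theorem spec_fam : SpecFAM := by
  intro d w j a e hj hw ha he Y _ _ _ _ hY
  obtain ⟨E, hE⟩ := hasCond j w d a hj (by omega) Y hY
  refine ⟨E, fun J L _ _ _ _ => ?_⟩
  have h2 : (0 : ℝ) < 2 ^ j := by positivity
  have h3 : ((2 * w + 1) * ((d + 2) * (w + 1)) / 2 ^ j : ℝ) ≤ e := by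
    rw [div_le_iff₀ h2]; exact he
  intro U hU
  have h1 := hE J L U hU
  refine le_trans ?_ h1
  exact mul_le_mul_of_nonneg_right
    (mul_le_mul_of_nonneg_right (by linarith) (Nat.cast_nonneg _)) (Nat.cast_nonneg _)

end Vale.Agent.P318.H664
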